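import Mathlib
import Vale.Agent.P129.OrthFamily
import Vale.Agent.P129.Selection

/-!
A Banach space whose density (or the density of the restrictions of its elements to some
infinite-dimensional subspace of the dual) is smaller than the covering number of the Lebesgue null ideal
(or, more strongly, smaller than some bounded eventually-different number) has a separable
infinite-dimensional quotient.
-/

open Filter TopologicalSpace MeasureTheory
open scoped Topology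

namespace Vale.Agent.P129

/-- Escaping from small slaloms, derived from eventual difference. -/
theorem exists_tuple_escaping {ι : Type*} (h : ℕ → ℕ) (hpos : ∀ n, 0 < h n)
    (hED : ∀ F : ι → (n : ℕ) → Fin (h n), ∃ g : (n : ℕ) → Fin (h n),
      ∀ a, ∀ᶠ n in atTop, g n ≠ F a n)
    (w : ℕ → ℕ) (B : ι → (n : ℕ) → Finset ((j : Fin (w n)) → Fin (h (Nat.pair n j)))) :
    ∃ g : (n : ℕ) → (j : Fin (w n)) → Fin (h (Nat.pair n j)),
      ∀ a, ∀ᶠ n in atTop, (B a n).card ≤ w n → g n ∉ B a n := by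
  classical
  let dflt : ∀ m, Fin (h m) := fun m => ⟨0, hpos m⟩
  let comp : ι → (n j : ℕ) → Fin (h (Nat.pair n j)) := fun a n j =>
    if hj : j < w n then
      (if hl : j < (B a n).toList.length then ((B a n).toList[j]) ⟨j, hj⟩
        else dflt _)
    else dflt _
  let F : ι → (m : ℕ) → Fin (h m) := fun a m =>
    Fin.cast (congrArg h (Nat.pair_unpair m)) (comp a m.unpair.1 m.unpair.2)
  have hF : ∀ a n j, F a (Nat.pair n j) = comp a n j := by
    intro a n j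
    have key : ∀ (p : ℕ × ℕ) (hp : p = (n, j)) (heq : h (Nat.pair p.1 p.2) = h (Nat.pair n j)),
        Fin.cast heq (comp a p.1 p.2) = comp a n j := by
      rintro p rfl heq
      rfl
    exact key _ (Nat.unpair_pair n j) _
  obtain ⟨g, hg⟩ := hED F
  refine ⟨fun n j => g (Nat.pair n j), fun a => ?_⟩
  obtain ⟨N, hN⟩ := eventually_atTop.mp (hg a)
  refine eventually_atTop.mpr ⟨N, fun n hn hcard hmem => ?_⟩
  obtain ⟨j, hj, hjeq⟩ := List.getElem_of_mem (Finset.mem_toList.mpr hmem)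
  have hjw : j < w n := by
    rw [Finset.length_toList] at hj
    omega
  refine hN (Nat.pair n j) (le_trans hn (Nat.left_le_pair n j)) ?_
  rw [hF]
  simp only [comp, dif_pos hjw, dif_pos hj, hjeq]

/-- If `ι`-many null sets never cover the line then one can be eventually different from
`ι`-many functions bounded by `2 ^ n`. -/
theorem eventually_different_of_null {ι : Type*}
    (hcov : ∀ N : ι → Set ℝ, (∀ a, volume (N a) = 0) → (⋃ a, N a) ≠ Set.univ)
    (F : ι → (n : ℕ) → Fin (2 ^ n)) :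
    ∃ g : (n : ℕ) → Fin (2 ^ n), ∀ a, ∀ᶠ n in atTop, g n ≠ F a n := by
  classical
  let I : ι → ℕ → Set ℝ := fun a n =>
    Set.Ico ((F a n : ℕ) / (2 : ℝ) ^ n) (((F a n : ℕ) + 1) / (2 : ℝ) ^ n)
  let A : ι → Set ℝ := fun a => {t | ∃ᶠ n in atTop, t ∈ I a n}
  have hA : ∀ a, volume (A a) = 0 := by
    intro a
    refine measure_setOfPred_frequently_eq_zero (p := fun n t => t ∈ I a n) ?_
    have hvol : ∀ n, volume {t | t ∈ I a n} = (2⁻¹ : ENNReal) ^ n := by
      intro n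
      rw [Set.ofPred_mem_eq, Real.volume_Ico, ← sub_div, add_sub_cancel_left,
        ENNReal.ofReal_div_of_pos (by positivity), ENNReal.ofReal_one,
        ENNReal.ofReal_pow (by norm_num), ENNReal.ofReal_ofNat, one_div, ENNReal.inv_pow]
    simp only [hvol]
    rw [ENNReal.tsum_geometric]
    simp
  let N : ι → Set ℝ := fun a => ⋃ m : ℤ, (fun t : ℝ => t + -(m : ℝ)) ⁻¹' A a
  have hN : ∀ a, volume (N a) = 0 := fun a =>
    measure_iUnion_null fun m => by rw [measure_preimage_add_right]; exact hA a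
  obtain ⟨t, ht⟩ := (Set.ne_univ_iff_exists_notMem _).mp (hcov N hN)
  have hlt : ∀ n : ℕ, ⌊Int.fract t * (2 : ℝ) ^ n⌋₊ < 2 ^ n := fun n => by
    rw [Nat.floor_lt (mul_nonneg (Int.fract_nonneg t) (by positivity))]
    push_cast
    exact mul_lt_of_lt_one_left (by positivity) (Int.fract_lt_one t)
  refine ⟨fun n => ⟨⌊Int.fract t * (2 : ℝ) ^ n⌋₊, hlt n⟩, fun a => ?_⟩
  by_contra hcon
  rw [not_eventually] at hcon
  refine ht (Set.mem_iUnion.mpr ⟨a, Set.mem_iUnion.mpr ⟨⌊t⌋, ?_⟩⟩)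
  show t + -(⌊t⌋ : ℝ) ∈ A a
  rw [← sub_eq_add_neg]
  refine hcon.mono fun n hn => ?_
  rw [not_not] at hn
  have hfl : ⌊Int.fract t * (2 : ℝ) ^ n⌋₊ = (F a n : ℕ) := congrArg Fin.val hn
  have hpow : (0 : ℝ) < 2 ^ n := by positivity
  have h1 := Nat.floor_le (mul_nonneg (Int.fract_nonneg t) hpow.le)
  have h2 := Nat.lt_floor_add_one (Int.fract t * (2 : ℝ) ^ n)
  rw [hfl] at h1 h2
  exact ⟨(div_le_iff₀ hpow).mpr h1, (lt_div_iff₀ hpow).mpr h2⟩

/-- Summable norm-one functionals on a given set, from eventual difference. -/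
theorem exists_summable_functionals {𝕜 : Type*} [RCLike 𝕜] {X : Type*} [NormedAddCommGroup X]
    [NormedSpace 𝕜 X] {W : Type*} [NormedAddCommGroup W] [NormedSpace 𝕜 W]
    (j : W →ₗᵢ[𝕜] StrongDual 𝕜 X) (hW : ¬ FiniteDimensional 𝕜 W) (D : Set X) (h : ℕ → ℕ)
    (hpos : ∀ n, 0 < h n)
    (hED : ∀ F : D → (n : ℕ) → Fin (h n), ∃ g : (n : ℕ) → Fin (h n),
      ∀ a, ∀ᶠ n in atTop, g n ≠ F a n) :
    ∃ z : ℕ → W, (∀ n, ‖z n‖ = 1) ∧ ∀ x ∈ D, Summable fun n => ‖j (z n) x‖ := by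
  classical
  let w : ℕ → ℕ := fun n => 16 * n * 4 ^ n
  let P : ℕ → Type := fun n => (j : Fin (w n)) → Fin (h (Nat.pair n j))
  choose u hu1 hu2 using fun n : ℕ => exists_functional_family j hW (Fintype.card (P n))
  let v : (n : ℕ) → P n → W := fun n τ => u n (Fintype.equivFin (P n) τ)
  have hv : ∀ n x, ∑ τ, ‖j (v n τ) x‖ ^ 2 ≤ 16 * ‖x‖ ^ 2 := fun n x => by
    rw [Equiv.sum_comp (Fintype.equivFin (P n)) (fun i => ‖j (u n i) x‖ ^ 2)]
    exact hu2 n x
  let B : D → (n : ℕ) → Finset (P n) := fun x n =>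
    Finset.univ.filter fun τ => (1 / 2 : ℝ) ^ n < ‖j (v n τ) x.1‖
  obtain ⟨g, hg⟩ := exists_tuple_escaping h hpos hED w B
  refine ⟨fun n => v n (g n), fun n => hu1 n _, fun x hx => ?_⟩
  refine Summable.of_norm_bounded_eventually_nat (g := fun n => (1 / 2 : ℝ) ^ n)
    summable_geometric_two ?_
  filter_upwards [hg ⟨x, hx⟩, eventually_ge_atTop ⌈‖x‖ ^ 2⌉₊] with n hn hnx
  rw [norm_norm]
  have hcard : (B ⟨x, hx⟩ n).card ≤ w n := by
    have h1 : ((B ⟨x, hx⟩ n).card : ℝ) * ((1 / 2) ^ n) ^ 2 ≤ 16 * ‖x‖ ^ 2 := by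
      calc ((B ⟨x, hx⟩ n).card : ℝ) * ((1 / 2) ^ n) ^ 2
          = ∑ _τ ∈ B ⟨x, hx⟩ n, ((1 / 2 : ℝ) ^ n) ^ 2 := by simp
        _ ≤ ∑ τ ∈ B ⟨x, hx⟩ n, ‖j (v n τ) x‖ ^ 2 :=
          Finset.sum_le_sum fun τ hτ =>
            pow_le_pow_left₀ (by positivity) (Finset.mem_filter.mp hτ).2.le 2
        _ ≤ ∑ τ, ‖j (v n τ) x‖ ^ 2 :=
          Finset.sum_le_sum_of_subset_of_nonneg (Finset.subset_univ _)
            (fun τ _ _ => by positivity)
        _ ≤ 16 * ‖x‖ ^ 2 := hv n x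
    have h2 : ((1 / 2 : ℝ) ^ n) ^ 2 = 1 / 4 ^ n := by
      rw [← pow_mul, mul_comm, pow_mul, ← one_div_pow]; norm_num
    rw [h2, mul_one_div, div_le_iff₀ (by positivity)] at h1
    have h3 : ‖x‖ ^ 2 ≤ (n : ℝ) := (Nat.le_ceil _).trans (by exact_mod_cast hnx)
    have h4 : ((B ⟨x, hx⟩ n).card : ℝ) ≤ ((w n : ℕ) : ℝ) := by
      refine h1.trans ?_
      simp only [w]
      push_cast
      gcongr
    exact_mod_cast h4
  have h5 := hn hcard
  simpa [B] using h5

/-- The main theorem for a subspace `W` of the dual. -/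
theorem separable_quotient_of_small {𝕜 : Type*} [RCLike 𝕜] {X : Type*} [NormedAddCommGroup X]
    [NormedSpace 𝕜 X] [CompleteSpace X] {W : Type*} [NormedAddCommGroup W] [NormedSpace 𝕜 W]
    (j : W →ₗᵢ[𝕜] StrongDual 𝕜 X) (hW : ¬ FiniteDimensional 𝕜 W) (D : Set X)
    (hball : ∀ d ∈ D, ‖d‖ ≤ 1)
    (hdense : ∀ x : X, ‖x‖ ≤ 1 → ∀ ε > 0, ∃ d ∈ D, ∀ f : W, ‖j f (x - d)‖ ≤ ε * ‖f‖)
    (hsmall :
      (∀ N : D → Set ℝ, (∀ a, volume (N a) = 0) → (⋃ a, N a) ≠ Set.univ) ∨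
      (∃ h : ℕ → ℕ, (∀ n, 0 < h n) ∧ ∀ F : D → (n : ℕ) → Fin (h n),
        ∃ g : (n : ℕ) → Fin (h n), ∀ a, ∀ᶠ n in atTop, g n ≠ F a n)) :
    ∃ M : Submodule 𝕜 X, IsClosed (M : Set X) ∧ SeparableSpace (X ⧸ M) ∧
      ¬ FiniteDimensional 𝕜 (X ⧸ M) := by
  obtain ⟨h, hpos, hED⟩ : ∃ h : ℕ → ℕ, (∀ n, 0 < h n) ∧ ∀ F : D → (n : ℕ) → Fin (h n),
      ∃ g : (n : ℕ) → Fin (h n), ∀ a, ∀ᶠ n in atTop, g n ≠ F a n := by
    rcases hsmall with hcov | hh
    · exact ⟨fun n => 2 ^ n, fun n => Nat.two_pow_pos n, eventually_different_of_null hcov⟩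
    · exact hh
  obtain ⟨z, hz, hzD⟩ := exists_summable_functionals j hW D h hpos hED
  refine exists_separable_quotient j z hz (Submodule.span 𝕜 D) (fun f r hr => ?_)
    (fun x ε hε => ?_) fun x hx => ?_
  · rw [← j.norm_map] at hr
    obtain ⟨x, hx1, hx2⟩ := (j f).exists_lt_apply_of_lt_opNorm hr
    obtain ⟨d, hd, hdf⟩ := hdense x hx1.le ((‖j f x‖ - r) / (‖f‖ + 1))
      (div_pos (sub_pos.mpr hx2) (by positivity))
    refine ⟨d, Submodule.subset_span hd, hball d hd, ?_⟩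
    have h2 : (‖j f x‖ - r) / (‖f‖ + 1) * ‖f‖ < ‖j f x‖ - r := by
      rw [div_mul_eq_mul_div, div_lt_iff₀ (by positivity)]
      nlinarith
    have h3 := hdf f
    rw [map_sub] at h3
    have h4 := norm_sub_norm_le (j f x) (j f d)
    linarith
  · by_cases hx0 : x = 0
    · exact ⟨0, Submodule.zero_mem _, fun f => by
        simp only [hx0, sub_zero, map_zero, norm_zero]
        positivity⟩
    · have hp : 0 < ‖x‖ := norm_pos_iff.mpr hx0
      let y : X := ((‖x‖⁻¹ : ℝ) : 𝕜) • x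
      have hy : ‖y‖ ≤ 1 := le_of_eq (by simp [y, norm_smul, hp.ne'])
      obtain ⟨d, hd, hdf⟩ := hdense y hy (ε / ‖x‖) (by positivity)
      refine ⟨((‖x‖ : ℝ) : 𝕜) • d, Submodule.smul_mem _ _ (Submodule.subset_span hd),
        fun f => ?_⟩
      have hxy : x = ((‖x‖ : ℝ) : 𝕜) • y := by
        simp only [y, smul_smul, ← RCLike.ofReal_mul, mul_inv_cancel₀ hp.ne', RCLike.ofReal_one,
          one_smul]
      have h2 : j f (x - ((‖x‖ : ℝ) : 𝕜) • d) = ((‖x‖ : ℝ) : 𝕜) * j f (y - d) := by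
        rw [show x - ((‖x‖ : ℝ) : 𝕜) • d = ((‖x‖ : ℝ) : 𝕜) • (y - d) by rw [smul_sub, ← hxy],
          map_smul, smul_eq_mul]
      rw [h2, norm_mul, RCLike.norm_ofReal, abs_norm]
      calc ‖x‖ * ‖j f (y - d)‖ ≤ ‖x‖ * (ε / ‖x‖ * ‖f‖) :=
            mul_le_mul_of_nonneg_left (hdf f) hp.le
        _ = ε * ‖f‖ := by field_simp
  · induction hx using Submodule.span_induction with
    | mem x hx => exact hzD x hx
    | zero => simp [summable_zero]
    | add a b _ _ ha hb =>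
      refine Summable.of_nonneg_of_le (fun n => norm_nonneg _) (fun n => ?_) (ha.add hb)
      rw [map_add]
      exact norm_add_le _ _
    | smul c a _ ha =>
      simp only [map_smul, norm_smul]
      exact ha.mul_left _

end Vale.Agent.P129

namespace Vale.Agent.Results.P129.DualSubspaceCovNull

open Vale.Agent.P129

universe u v w

/-- `Small D`-hypothesis: fewer members than it takes null sets to cover the line, or than some
bounded eventually-different number. Under it, a separable infinite-dimensional quotient exists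
as soon as `D` is, in the closed unit ball, dense for the seminorm of an infinite-dimensional
subspace `W` of the dual; in particular as soon as `D` is norm dense in the closed unit ball. -/
theorem result (𝕜 : Type u) [RCLike 𝕜] (X : Type v) [NormedAddCommGroup X] [NormedSpace 𝕜 X]
    [CompleteSpace X] (D : Set X) (hball : ∀ d ∈ D, ‖d‖ ≤ 1)
    (hsmall :
      (∀ N : D → Set ℝ, (∀ a, volume (N a) = 0) → (⋃ a, N a) ≠ Set.univ) ∨
      (∃ h : ℕ → ℕ, (∀ n, 0 < h n) ∧ ∀ F : D → (n : ℕ) → Fin (h n),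
        ∃ g : (n : ℕ) → Fin (h n), ∀ a, ∀ᶠ n in atTop, g n ≠ F a n)) :
    (∀ (W : Type w) [NormedAddCommGroup W] [NormedSpace 𝕜 W] (j : W →ₗᵢ[𝕜] StrongDual 𝕜 X),
      ¬ FiniteDimensional 𝕜 W →
      (∀ x : X, ‖x‖ ≤ 1 → ∀ ε > 0, ∃ d ∈ D, ∀ f : W, ‖j f (x - d)‖ ≤ ε * ‖f‖) →
        ∃ M : Submodule 𝕜 X, IsClosed (M : Set X) ∧ SeparableSpace (X ⧸ M) ∧
          ¬ FiniteDimensional 𝕜 (X ⧸ M)) ∧
    (¬ FiniteDimensional 𝕜 X → Metric.closedBall (0 : X) 1 ⊆ closure D →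
        ∃ M : Submodule 𝕜 X, IsClosed (M : Set X) ∧ SeparableSpace (X ⧸ M) ∧
          ¬ FiniteDimensional 𝕜 (X ⧸ M)) := by
  refine ⟨fun W _ _ j hW hdense => separable_quotient_of_small j hW D hball hdense hsmall,
    fun hX hcl => ?_⟩
  refine separable_quotient_of_small (W := StrongDual 𝕜 X) LinearIsometry.id
    (not_finiteDimensional_dual hX) D hball (fun x hx ε hε => ?_) hsmall
  obtain ⟨d, hd, hdist⟩ := Metric.mem_closure_iff.mp
    (hcl (mem_closedBall_zero_iff.mpr hx)) ε hε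
  rw [dist_eq_norm] at hdist
  refine ⟨d, hd, fun f => ?_⟩
  show ‖f (x - d)‖ ≤ _
  exact (f.le_opNorm _).trans (by
    rw [mul_comm]; exact mul_le_mul_of_nonneg_right hdist.le (norm_nonneg _))

end Vale.Agent.Results.P129.DualSubspaceCovNull
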