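import Mathlib
import Vale.Agent.P129.OrthFamily
import Vale.Agent.P129.Selection

/-!
If the dual contains a normalized sequence which is uniformly weak-star null, then a linearly
dense set of size smaller than the eventual-difference number of `ℕ → ℕ` (that is, than the
least size of a non-meagre set of reals) gives a separable infinite-dimensional quotient.
-/

open Filter TopologicalSpace
open scoped Topology

namespace Vale.Agent.P129

/-- Escaping from finite sets of bounded size, from eventual difference in `ℕ → ℕ`. -/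
theorem exists_escaping_nat {ι : Type*}
    (hED : ∀ F : ι → ℕ → ℕ, ∃ g : ℕ → ℕ, ∀ a, ∀ᶠ n in atTop, g n ≠ F a n)
    (w : ℕ → ℕ) (B : ι → ℕ → Finset ℕ) (hB : ∀ a n, (B a n).card ≤ w n) :
    ∃ m : ℕ → ℕ, ∀ a, ∀ᶠ n in atTop, m n ∉ B a n := by
  classical
  let comp : ι → ℕ → ℕ → ℕ := fun a n j =>
    ((Encodable.decode (α := List ℕ) ((B a n).toList.getD j 0)).getD []).getD j 0
  let F : ι → ℕ → ℕ := fun a k => comp a k.unpair.1 k.unpair.2
  obtain ⟨g, hg⟩ := hED F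
  refine ⟨fun n => Encodable.encode (List.ofFn fun j : Fin (w n) => g (Nat.pair n j)),
    fun a => ?_⟩
  obtain ⟨N, hN⟩ := eventually_atTop.mp (hg a)
  refine eventually_atTop.mpr ⟨N, fun n hn hmem => ?_⟩
  obtain ⟨j, hj, hjeq⟩ := List.getElem_of_mem (Finset.mem_toList.mpr hmem)
  have hjw : j < w n := by
    have := hB a n
    rw [Finset.length_toList] at hj
    omega
  refine hN (Nat.pair n j) (le_trans hn (Nat.left_le_pair n j)) ?_
  simp only [F, comp, Nat.unpair_pair, List.getD_eq_getElem _ _ hj, hjeq, Encodable.encodek,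
    Option.getD_some]
  rw [List.getD_eq_getElem _ _ (by simpa using hjw), List.getElem_ofFn]

end Vale.Agent.P129

namespace Vale.Agent.Results.P129.UniformWeakStarNullNonMeagre

open Vale.Agent.P129

/-- The seminorm version: a normalized uniformly weak-star null sequence in a subspace `W` of
the dual, and a set `D` whose span is dense in the unit ball for the seminorm given by `W`. -/
theorem quotient_of_uniform {𝕜 : Type*} [RCLike 𝕜] {X : Type*} [NormedAddCommGroup X]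
    [NormedSpace 𝕜 X] [CompleteSpace X] {W : Type*} [NormedAddCommGroup W] [NormedSpace 𝕜 W]
    (j : W →ₗᵢ[𝕜] StrongDual 𝕜 X) (f : ℕ → W) (hf : ∀ m, ‖f m‖ = 1)
    (huni : ∀ ε > 0, ∃ N : ℕ, ∀ x : X, ‖x‖ ≤ 1 →
      ∃ s : Finset ℕ, s.card ≤ N ∧ ∀ m, ε < ‖j (f m) x‖ → m ∈ s)
    (D : Set X)
    (hdense : ∀ x : X, ‖x‖ ≤ 1 → ∀ ε > 0, ∃ d ∈ Submodule.span 𝕜 D,
      ‖d‖ ≤ 1 ∧ ∀ g : W, ‖j g (x - d)‖ ≤ ε * ‖g‖)
    (hsmall : ∀ F : D → ℕ → ℕ, ∃ g : ℕ → ℕ, ∀ a, ∀ᶠ n in atTop, g n ≠ F a n) :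
    ∃ M : Submodule 𝕜 X, IsClosed (M : Set X) ∧ SeparableSpace (X ⧸ M) ∧
      ¬ FiniteDimensional 𝕜 (X ⧸ M) := by
  classical
  choose w hw using fun n : ℕ => huni ((1 / 2 : ℝ) ^ n) (by positivity)
  let u : D → X := fun x => (((1 + ‖x.1‖)⁻¹ : ℝ) : 𝕜) • x.1
  have hu : ∀ x, ‖u x‖ ≤ 1 := fun x => by
    have hp : 0 < 1 + ‖x.1‖ := by positivity
    simp only [u, norm_smul, RCLike.norm_ofReal, abs_inv, abs_of_pos hp]
    rw [inv_mul_le_one₀ hp]
    linarith [norm_nonneg x.1]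
  choose B hB1 hB2 using fun (x : D) (n : ℕ) => hw n (u x) (hu x)
  obtain ⟨m, hm⟩ := exists_escaping_nat hsmall w B hB1
  refine exists_separable_quotient j (fun n => f (m n))
    (fun n => hf _) (Submodule.span 𝕜 D) (fun g r hr => ?_) (fun x ε hε => ?_) fun x hx => ?_
  · rw [← j.norm_map] at hr
    obtain ⟨x, hx1, hx2⟩ := (j g).exists_lt_apply_of_lt_opNorm hr
    obtain ⟨d, hd, hd1, hdg⟩ := hdense x hx1.le ((‖j g x‖ - r) / (‖g‖ + 1))
      (div_pos (sub_pos.mpr hx2) (by positivity))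
    refine ⟨d, hd, hd1, ?_⟩
    have h2 : (‖j g x‖ - r) / (‖g‖ + 1) * ‖g‖ < ‖j g x‖ - r := by
      rw [div_mul_eq_mul_div, div_lt_iff₀ (by positivity)]
      nlinarith
    have h3 := hdg g
    rw [map_sub] at h3
    have h4 := norm_sub_norm_le (j g x) (j g d)
    linarith
  · let c : ℝ := ‖x‖ + 1
    have hp : 0 < c := by positivity
    let y : X := ((c⁻¹ : ℝ) : 𝕜) • x
    have hy : ‖y‖ ≤ 1 := by
      simp only [y, norm_smul, RCLike.norm_ofReal, abs_inv, abs_of_pos hp]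
      rw [inv_mul_le_one₀ hp]
      simp [c]
    obtain ⟨d, hd, _, hdg⟩ := hdense y hy (ε / c) (by positivity)
    refine ⟨((c : ℝ) : 𝕜) • d, Submodule.smul_mem _ _ hd, fun g => ?_⟩
    have hxy : x = ((c : ℝ) : 𝕜) • y := by
      simp only [y, smul_smul, ← RCLike.ofReal_mul, mul_inv_cancel₀ hp.ne', RCLike.ofReal_one,
        one_smul]
    rw [show x - ((c : ℝ) : 𝕜) • d = ((c : ℝ) : 𝕜) • (y - d) by rw [smul_sub, ← hxy],
      map_smul, norm_smul, RCLike.norm_ofReal, abs_of_pos hp]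
    calc c * ‖j g (y - d)‖ ≤ c * (ε / c * ‖g‖) :=
          mul_le_mul_of_nonneg_left (hdg g) hp.le
      _ = ε * ‖g‖ := by field_simp
  · induction hx using Submodule.span_induction with
    | mem x hx =>
      refine Summable.of_norm_bounded_eventually_nat
        (g := fun n => (1 + ‖x‖) * (1 / 2 : ℝ) ^ n) (summable_geometric_two.mul_left _) ?_
      filter_upwards [hm ⟨x, hx⟩] with n hn
      rw [norm_norm]
      have h1 : ‖j (f (m n)) (u ⟨x, hx⟩)‖ ≤ (1 / 2 : ℝ) ^ n := by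
        by_contra hc
        exact hn (hB2 ⟨x, hx⟩ n (m n) (not_le.mp hc))
      have hp : 0 < 1 + ‖x‖ := by positivity
      simp only [u, map_smul, norm_smul, RCLike.norm_ofReal, abs_inv, abs_of_pos hp] at h1
      rwa [inv_mul_le_iff₀ hp] at h1
    | zero => simp [summable_zero]
    | add a b _ _ ha hb =>
      refine Summable.of_nonneg_of_le (fun n => norm_nonneg _) (fun n => ?_) (ha.add hb)
      rw [map_add]
      exact norm_add_le _ _
    | smul c a _ ha =>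
      simp only [map_smul, norm_smul]
      exact ha.mul_left _

universe u v w

/-- If a subspace `W` of `X*` contains a normalized uniformly weak-star null sequence and the
span of `D` is dense in the unit ball for the seminorm of `W` (in particular if it is norm
dense), where no `D`-indexed family in `ℕ → ℕ` meets every function infinitely often, then `X`
has a separable infinite-dimensional quotient. -/
theorem result (𝕜 : Type u) [RCLike 𝕜] (X : Type v) [NormedAddCommGroup X] [NormedSpace 𝕜 X]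
    [CompleteSpace X] (D : Set X)
    (hsmall : ∀ F : D → ℕ → ℕ, ∃ g : ℕ → ℕ, ∀ a, ∀ᶠ n in atTop, g n ≠ F a n) :
    (∀ (W : Type w) [NormedAddCommGroup W] [NormedSpace 𝕜 W] (j : W →ₗᵢ[𝕜] StrongDual 𝕜 X)
      (f : ℕ → W), (∀ m, ‖f m‖ = 1) →
      (∀ ε > 0, ∃ N : ℕ, ∀ x : X, ‖x‖ ≤ 1 →
        ∃ s : Finset ℕ, s.card ≤ N ∧ ∀ m, ε < ‖j (f m) x‖ → m ∈ s) →
      (∀ x : X, ‖x‖ ≤ 1 → ∀ ε > 0, ∃ d ∈ Submodule.span 𝕜 D,
        ‖d‖ ≤ 1 ∧ ∀ g : W, ‖j g (x - d)‖ ≤ ε * ‖g‖) →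
      ∃ M : Submodule 𝕜 X, IsClosed (M : Set X) ∧ SeparableSpace (X ⧸ M) ∧
        ¬ FiniteDimensional 𝕜 (X ⧸ M)) ∧
    (∀ f : ℕ → StrongDual 𝕜 X, (∀ m, ‖f m‖ = 1) →
      (∀ ε > 0, ∃ N : ℕ, ∀ x : X, ‖x‖ ≤ 1 →
        ∃ s : Finset ℕ, s.card ≤ N ∧ ∀ m, ε < ‖f m x‖ → m ∈ s) →
      Dense ((Submodule.span 𝕜 D : Submodule 𝕜 X) : Set X) →
      ∃ M : Submodule 𝕜 X, IsClosed (M : Set X) ∧ SeparableSpace (X ⧸ M) ∧
        ¬ FiniteDimensional 𝕜 (X ⧸ M)) := by
  refine ⟨fun W _ _ j f hf huni hdense => quotient_of_uniform j f hf huni D hdense hsmall,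
    fun f hf huni hD => ?_⟩
  refine quotient_of_uniform (W := StrongDual 𝕜 X) LinearIsometry.id f hf huni D
    (fun x hx ε hε => ?_) hsmall
  have hcl : x ∈ closure (Metric.ball (0 : X) 1) := by
    letI : NormedSpace ℝ X := NormedSpace.restrictScalars ℝ 𝕜 X
    rw [closure_ball (0 : X) one_ne_zero, mem_closedBall_zero_iff]
    exact hx
  obtain ⟨y, hy, hxy⟩ := Metric.mem_closure_iff.mp hcl ε hε
  have hopen : IsOpen (Metric.ball (0 : X) 1 ∩ Metric.ball x ε) :=
    Metric.isOpen_ball.inter Metric.isOpen_ball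
  obtain ⟨d, ⟨hd1, hd2⟩, hdE⟩ := hD.inter_open_nonempty _ hopen
    ⟨y, hy, by rwa [Metric.mem_ball, dist_comm]⟩
  rw [Metric.mem_ball, dist_comm, dist_eq_norm] at hd2
  refine ⟨d, hdE, (mem_ball_zero_iff.mp hd1).le, fun g => ?_⟩
  show ‖g (x - d)‖ ≤ _
  exact (g.le_opNorm _).trans (by
    rw [mul_comm]; exact mul_le_mul_of_nonneg_right hd2.le (norm_nonneg _))

end Vale.Agent.Results.P129.UniformWeakStarNullNonMeagre
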